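import Mathlib.Analysis.InnerProductSpace.Laplacian
import Mathlib.Analysis.InnerProductSpace.PiL2
import Mathlib.Analysis.InnerProductSpace.Calculus
import Mathlib.Analysis.Calculus.DerivativeTest
import Mathlib.Analysis.SpecialFunctions.ExpDeriv
import Mathlib.Analysis.SpecialFunctions.Trigonometric.Deriv
import Mathlib.Analysis.SpecialFunctions.Pow.Real

open Filter Topology Set
open scoped InnerProductSpace Laplacian

namespace Vale.Agent.P100

variable {n : ℕ}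

abbrev En (n : ℕ) := EuclideanSpace ℝ (Fin n)

noncomputable def rd (f : En n → ℝ) (x : En n) : ℝ := fderiv ℝ f x x

noncomputable def hes (f : En n → ℝ) (x : En n) : En n →L[ℝ] En n →L[ℝ] ℝ :=
  fderiv ℝ (fderiv ℝ f) x

noncomputable def lap (f : En n → ℝ) (x : En n) : ℝ :=
  ∑ i, hes f x (EuclideanSpace.basisFun (Fin n) ℝ i) (EuclideanSpace.basisFun (Fin n) ℝ i)

lemma laplacian_eq_lap (f : En n → ℝ) (x : En n) : Δ f x = lap f x := by
  rw [InnerProductSpace.laplacian_eq_iteratedFDeriv_orthonormalBasis f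
    (EuclideanSpace.basisFun (Fin n) ℝ)]
  simp [lap, hes, iteratedFDeriv_two_apply]

noncomputable def tanLap (f : En n → ℝ) (x : En n) : ℝ :=
  ‖x‖ ^ 2 * lap f x - hes f x x x - ((n : ℝ) - 1) * rd f x

noncomputable def pt (s : ℝ) (θ : En n) : En n := Real.exp s • θ

noncomputable def cU (k : ℝ) (f : En n → ℝ) (s : ℝ) (θ : En n) : ℝ :=
  Real.exp (k * s) * f (pt s θ)

noncomputable def cU1 (k : ℝ) (f : En n → ℝ) (s : ℝ) (θ : En n) : ℝ :=
  Real.exp (k * s) * (k * f (pt s θ) + rd f (pt s θ))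

noncomputable def cU2 (k : ℝ) (f : En n → ℝ) (s : ℝ) (θ : En n) : ℝ :=
  Real.exp (k * s) * (k ^ 2 * f (pt s θ) + (2 * k + 1) * rd f (pt s θ)
    + hes f (pt s θ) (pt s θ) (pt s θ))

noncomputable def cT (k : ℝ) (f : En n → ℝ) (s : ℝ) (θ : En n) : ℝ :=
  Real.exp (k * s) * tanLap f (pt s θ)

abbrev sph (n : ℕ) : Set (En n) := Metric.sphere (0 : En n) 1

lemma norm_of_mem {θ : En n} (h : θ ∈ sph n) : ‖θ‖ = 1 := by simpa [sph] using h

lemma norm_pt {θ : En n} (h : θ ∈ sph n) (s : ℝ) : ‖pt s θ‖ = Real.exp s := by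
  simp [pt, norm_smul, norm_of_mem h, abs_of_pos (Real.exp_pos s)]

lemma pt_ne_zero {θ : En n} (h : θ ∈ sph n) (s : ℝ) : pt s θ ≠ 0 := by
  intro e
  have := norm_pt h s
  rw [e, norm_zero] at this
  exact (Real.exp_pos s).ne this

lemma continuous_pt : Continuous fun z : ℝ × En n => pt z.1 z.2 := by
  unfold pt; fun_prop

lemma hasDerivAt_pt (s : ℝ) (θ : En n) : HasDerivAt (fun t => pt t θ) (pt s θ) s :=
  (Real.hasDerivAt_exp s).smul_const θ

variable {f : En n → ℝ}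

abbrev C2 (f : En n → ℝ) : Prop := ContDiffOn ℝ 2 f {0}ᶜ

lemma C2.at (hf : C2 f) {x : En n} (hx : x ≠ 0) : ContDiffAt ℝ 2 f x :=
  hf.contDiffAt (isOpen_compl_singleton.mem_nhds hx)

lemma C2.hasFDerivAt (hf : C2 f) {x : En n} (hx : x ≠ 0) :
    HasFDerivAt f (fderiv ℝ f x) x :=
  ((hf.at hx).differentiableAt (by norm_num)).hasFDerivAt

lemma C2.hasFDerivAt_fderiv (hf : C2 f) {x : En n} (hx : x ≠ 0) :
    HasFDerivAt (fderiv ℝ f) (hes f x) x :=
  (((hf.at hx).fderiv_right (m := 1) (by norm_num)).differentiableAt (by norm_num)).hasFDerivAt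

lemma C2.hasDerivAt_comp (hf : C2 f) {c : ℝ → En n} {c' : En n} {t : ℝ}
    (hc : HasDerivAt c c' t) (h0 : c t ≠ 0) :
    HasDerivAt (fun r => f (c r)) (fderiv ℝ f (c t) c') t :=
  (hf.hasFDerivAt h0).comp_hasDerivAt t hc

lemma C2.hasDerivAt_comp2 (hf : C2 f) {c e : ℝ → En n} {c' e' : En n} {t : ℝ}
    (hc : HasDerivAt c c' t) (he : HasDerivAt e e' t) (h0 : c t ≠ 0) :
    HasDerivAt (fun r => fderiv ℝ f (c r) (e r))
      (hes f (c t) c' (e t) + fderiv ℝ f (c t) e') t := by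
  simpa using ((hf.hasFDerivAt_fderiv h0).comp_hasDerivAt t hc).clm_apply he

lemma hasDerivAt_cU (hf : C2 f) (k s : ℝ) {θ : En n} (hθ : θ ∈ sph n) :
    HasDerivAt (fun t => cU k f t θ) (cU1 k f s θ) s := by
  have h1 := ((hasDerivAt_id s).const_mul k).exp
  have h2 := hf.hasDerivAt_comp (hasDerivAt_pt s θ) (pt_ne_zero hθ s)
  refine (h1.mul h2).congr_deriv ?_
  simp only [cU1, rd, id, mul_one]; ring

lemma hasDerivAt_cU1 (hf : C2 f) (k s : ℝ) {θ : En n} (hθ : θ ∈ sph n) :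
    HasDerivAt (fun t => cU1 k f t θ) (cU2 k f s θ) s := by
  have h1 := ((hasDerivAt_id s).const_mul k).exp
  have hp := hasDerivAt_pt s θ
  have h2 := hf.hasDerivAt_comp hp (pt_ne_zero hθ s)
  have h3 := hf.hasDerivAt_comp2 hp hp (pt_ne_zero hθ s)
  refine (h1.mul ((h2.const_mul k).add h3)).congr_deriv ?_
  simp only [cU2, rd, id, mul_one, Pi.add_apply]; ring

lemma continuousOn_cU (hf : C2 f) (k : ℝ) :
    ContinuousOn (fun z : ℝ × En n => cU k f z.1 z.2) (univ ×ˢ sph n) := by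
  refine ContinuousOn.mul (by fun_prop) ?_
  exact hf.continuousOn.comp continuous_pt.continuousOn fun z hz => pt_ne_zero hz.2 z.1

lemma continuousOn_cU1 (hf : C2 f) (k : ℝ) :
    ContinuousOn (fun z : ℝ × En n => cU1 k f z.1 z.2) (univ ×ˢ sph n) := by
  have hm : MapsTo (fun z : ℝ × En n => pt z.1 z.2) (univ ×ˢ sph n) {0}ᶜ :=
    fun z hz => pt_ne_zero hz.2 z.1
  have hd : ContinuousOn (fderiv ℝ f) {0}ᶜ :=
    hf.continuousOn_fderiv_of_isOpen isOpen_compl_singleton (by norm_num)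
  refine ContinuousOn.mul (by fun_prop) (ContinuousOn.add ?_ ?_)
  · exact (hf.continuousOn.comp continuous_pt.continuousOn hm).const_smul k
  · exact (hd.comp continuous_pt.continuousOn hm).clm_apply continuous_pt.continuousOn

/-- The equation in cylinder coordinates. -/
lemma cyl_eq (k s : ℝ) {θ : En n} (hθ : θ ∈ sph n) :
    cU2 k f s θ + ((n : ℝ) - 2 - 2 * k) * cU1 k f s θ + cT k f s θ
      = k * ((n : ℝ) - 2 - k) * cU k f s θ
        + Real.exp ((k + 2) * s) * lap f (pt s θ) := by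
  have : Real.exp ((k + 2) * s) = Real.exp (k * s) * ‖pt s θ‖ ^ 2 := by
    rw [norm_pt hθ, sq, ← Real.exp_add, ← Real.exp_add]; ring_nf
  rw [this]
  simp only [cU2, cU1, cT, cU, tanLap]; ring

/-- A second derivative test. -/
lemma second_deriv_nonneg {g g' : ℝ → ℝ} {L x : ℝ} (h : ∀ᶠ t in 𝓝 x, HasDerivAt g (g' t) t)
    (h2 : HasDerivAt g' L x) (hmin : IsLocalMin g x) : 0 ≤ L := by
  by_contra hL
  push Not at hL
  have e : deriv g =ᶠ[𝓝 x] g' := h.mono fun t ht => ht.deriv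
  have hd : deriv g x = 0 := hmin.deriv_eq_zero
  have hdd : deriv (deriv g) x = L := by rw [e.deriv_eq]; exact h2.deriv
  have hmax := isLocalMax_of_deriv_deriv_neg (by rw [hdd]; exact hL) hd
    h.self_of_nhds.continuousAt
  have hconst : g =ᶠ[𝓝 x] fun _ => g x := (hmin.and hmax).mono fun t ht => le_antisymm ht.2 ht.1
  have e2 : deriv g =ᶠ[𝓝 x] fun _ => 0 := by
    filter_upwards [hconst.eventuallyEq_nhds] with t ht
    rw [ht.deriv_eq, deriv_const]
  rw [e2.deriv_eq, deriv_const] at hdd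
  exact absurd hdd.symm hL.ne

/-- The tangential part of the Laplacian is nonnegative at a minimum on the sphere. -/
lemma tan_test (hf : C2 f) {a b r₁ r₂ : ℝ} (h₁ : 0 < r₁) (h₂ : 0 < r₂) {θ : En n}
    (hθ : θ ∈ sph n)
    (hmin : ∀ θ' ∈ sph n, a * f (r₁ • θ) - b * f (r₂ • θ)
      ≤ a * f (r₁ • θ') - b * f (r₂ • θ')) :
    b * tanLap f (r₂ • θ) ≤ a * tanLap f (r₁ • θ) := by
  set B := EuclideanSpace.basisFun (Fin n) ℝ
  set e : Fin n → En n := fun i => B i - ⟪θ, B i⟫_ℝ • θ with he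
  have hθ1 := norm_of_mem hθ
  have horth : ∀ i, ⟪θ, e i⟫_ℝ = 0 := by
    intro i
    simp [he, inner_sub_right, inner_smul_right, hθ1]
  let S : ℝ → En n → ℝ := fun r v =>
    hes f (r • θ) (r • v) (r • v) - ‖v‖ ^ 2 * rd f (r • θ)
  have key : ∀ i, b * S r₂ (e i) ≤ a * S r₁ (e i) := by
    intro i
    set w := ‖e i‖ with hw
    set u := w⁻¹ • e i
    have hwu : w • u = e i := by
      rcases eq_or_ne w 0 with h | h
      · simp [h, norm_eq_zero.1 (show ‖e i‖ = 0 from h)]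
      · simp [u, smul_smul, h]
    let c : ℝ → En n := fun φ => Real.cos (w * φ) • θ + Real.sin (w * φ) • u
    let c' : ℝ → En n := fun φ => (-(w * Real.sin (w * φ))) • θ + (w * Real.cos (w * φ)) • u
    have hc : ∀ φ, HasDerivAt c (c' φ) φ := by
      intro φ
      have h := (hasDerivAt_id φ).const_mul w
      refine ((h.cos.smul_const θ).add (h.sin.smul_const u)).congr_deriv ?_
      simp [c', mul_comm]
    have hc' : HasDerivAt c' ((-(w ^ 2)) • θ) 0 := by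
      have h := (hasDerivAt_id (0 : ℝ)).const_mul w
      refine ((((h.sin.const_mul w).neg).smul_const θ).add
        ((h.cos.const_mul w).smul_const u)).congr_deriv ?_
      simp [sq]
    have hc0 : c 0 = θ := by simp [c]
    have hc'0 : c' 0 = e i := by simp [c', hwu]
    have hcS : ∀ φ, c φ ∈ sph n := by
      intro φ
      rcases eq_or_ne w 0 with h | h
      · simpa [c, h] using hθ
      · have hu : ‖u‖ = 1 := by
          simp [u, norm_smul, ← hw, abs_of_nonneg (show 0 ≤ w from norm_nonneg _), inv_mul_cancel₀ h]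
        have ho : ⟪θ, u⟫_ℝ = 0 := by simp [u, inner_smul_right, horth i]
        have : ‖c φ‖ ^ 2 = 1 := by
          simp only [c]
          rw [norm_add_sq_real, norm_smul, norm_smul, inner_smul_left, inner_smul_right, ho,
            hθ1, hu]
          simp [Real.cos_sq_add_sin_sq]
        simpa [sph] using (sq_eq_one_iff.1 this).resolve_right
          (fun h' => by linarith [norm_nonneg (c φ)])
    have hne : ∀ r : ℝ, 0 < r → ∀ φ, r • c φ ≠ 0 := fun r hr φ => smul_ne_zero hr.ne' (by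
      intro h; simpa [sph, h] using hcS φ)
    have d1 : ∀ r : ℝ, 0 < r → ∀ φ, HasDerivAt (fun t => f (r • c t))
        (fderiv ℝ f (r • c φ) (r • c' φ)) φ := fun r hr φ =>
      hf.hasDerivAt_comp ((hc φ).const_smul r) (hne r hr φ)
    have d2 : ∀ r : ℝ, 0 < r → HasDerivAt (fun t => fderiv ℝ f (r • c t) (r • c' t))
        (S r (e i)) 0 := by
      intro r hr
      refine (hf.hasDerivAt_comp2 ((hc 0).const_smul r) (hc'.const_smul r) (hne r hr 0))
        |>.congr_deriv ?_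
      simp [S, hc0, hc'0, rd, ← hw, map_smul, mul_comm, mul_left_comm]
      ring
    have := second_deriv_nonneg
      (g := fun t => a * f (r₁ • c t) - b * f (r₂ • c t))
      (Eventually.of_forall fun φ =>
        ((d1 r₁ h₁ φ).const_mul a).sub ((d1 r₂ h₂ φ).const_mul b))
      (((d2 r₁ h₁).const_mul a).sub ((d2 r₂ h₂).const_mul b))
      (Eventually.of_forall fun φ => by simpa [hc0] using hmin _ (hcS φ))
    linarith
  have hsum : ∀ r : ℝ, 0 < r → ∑ i, S r (e i) = tanLap f (r • θ) := by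
    intro r hr
    have hrep : ∑ i, ⟪θ, B i⟫_ℝ • B i = θ := by
      conv_rhs => rw [← B.sum_repr' θ]
      exact Finset.sum_congr rfl fun i _ => by rw [real_inner_comm]
    have hB : ∑ i, ⟪θ, B i⟫_ℝ ^ 2 = 1 := by
      simpa [hθ1, sq, real_inner_comm θ] using B.sum_inner_mul_inner θ θ |>.trans (real_inner_self_eq_norm_sq θ)
    have hH : ∑ i, hes f (r • θ) (e i) (e i)
        = lap f (r • θ) - hes f (r • θ) θ θ := by
      set H := hes f (r • θ)
      have h1 : ∑ i, ⟪θ, B i⟫_ℝ * H θ (B i) = H θ θ := by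
        conv_rhs => arg 2; rw [← hrep]
        simp [map_sum]
      have h2 : ∑ i, ⟪θ, B i⟫_ℝ * H (B i) θ = H θ θ := by
        conv_rhs => arg 1; arg 2; rw [← hrep]
        simp [map_sum]
      have : ∀ i, H (e i) (e i) = H (B i) (B i) - ⟪θ, B i⟫_ℝ * H θ (B i)
          - ⟪θ, B i⟫_ℝ * H (B i) θ + ⟪θ, B i⟫_ℝ ^ 2 * H θ θ := by
        intro i; simp [he, map_sub, map_smul]; ring
      simp only [this, Finset.sum_add_distrib, Finset.sum_sub_distrib, h1, h2, ← Finset.sum_mul,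
        hB, lap]
      ring
    have hN : ∑ i, ‖e i‖ ^ 2 = (n : ℝ) - 1 := by
      have : ∀ i, ‖e i‖ ^ 2 = 1 - ⟪θ, B i⟫_ℝ ^ 2 := by
        intro i
        simp only [he]
        rw [norm_sub_sq_real, norm_smul, inner_smul_right, real_inner_comm (B i) θ, hθ1]
        simp [B.orthonormal.1 i]
        ring
      simp [this, hB]
    have hnr : ‖r • θ‖ = r := by simp [norm_smul, hθ1, abs_of_pos hr]
    calc ∑ i, S r (e i)
        = ∑ i, (r ^ 2 * hes f (r • θ) (e i) (e i) - ‖e i‖ ^ 2 * rd f (r • θ)) := by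
          refine Finset.sum_congr rfl fun i _ => ?_
          simp [S, map_smul]; ring
      _ = r ^ 2 * (lap f (r • θ) - hes f (r • θ) θ θ) - ((n : ℝ) - 1) * rd f (r • θ) := by
          rw [Finset.sum_sub_distrib, ← Finset.mul_sum, ← Finset.sum_mul, hH, hN]
      _ = tanLap f (r • θ) := by
          simp [tanLap, hnr, map_smul]; ring
  rw [← hsum r₁ h₁, ← hsum r₂ h₂, Finset.mul_sum, Finset.mul_sum]
  exact Finset.sum_le_sum fun i _ => key i

/-- The minimum principle on a slab, with a barrier depending only on the axial variable. -/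
lemma slab_le {lo hi c : ℝ} {G G1 G2 GT : ℝ → En n → ℝ} {φ φ' φ'' : ℝ → ℝ}
    (hG : ContinuousOn (fun z : ℝ × En n => G z.1 z.2) (univ ×ˢ sph n))
    (hd : ∀ θ ∈ sph n, ∀ s, HasDerivAt (fun t => G t θ) (G1 s θ) s)
    (hd' : ∀ θ ∈ sph n, ∀ s, HasDerivAt (fun t => G1 t θ) (G2 s θ) s)
    (hT : ∀ θ ∈ sph n, ∀ s, (∀ θ' ∈ sph n, G s θ ≤ G s θ') → 0 ≤ GT s θ)
    (hφ : ∀ s, HasDerivAt φ (φ' s) s) (hφ' : ∀ s, HasDerivAt φ' (φ'' s) s)
    (hb : ∀ θ ∈ sph n, φ lo ≤ G lo θ ∧ φ hi ≤ G hi θ)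
    (heq : ∀ θ ∈ sph n, ∀ s ∈ Ioo lo hi, G s θ < φ s →
      G2 s θ + c * G1 s θ + GT s θ < φ'' s + c * φ' s) :
    ∀ θ ∈ sph n, ∀ s ∈ Icc lo hi, φ s ≤ G s θ := by
  intro θ hθ s hs
  by_contra hlt
  push Not at hlt
  have hφc : Continuous φ := continuous_iff_continuousAt.2 fun t => (hφ t).continuousAt
  obtain ⟨⟨s₀, θ₀⟩, ⟨hs₀, hθ₀⟩, hm⟩ :=
    (isCompact_Icc (a := lo) (b := hi)).prod (isCompact_sphere (0 : En n) 1)
      |>.exists_isMinOn ⟨(s, θ), hs, hθ⟩
      (f := fun z : ℝ × En n => G z.1 z.2 - φ z.1)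
      ((hG.mono (prod_mono (subset_univ _) subset_rfl)).sub (hφc.comp continuous_fst).continuousOn)
  have hm' : ∀ t ∈ Icc lo hi, ∀ θ' ∈ sph n, G s₀ θ₀ - φ s₀ ≤ G t θ' - φ t :=
    fun t ht θ' hθ' => hm (show (t, θ') ∈ Icc lo hi ×ˢ _ from ⟨ht, hθ'⟩)
  have hneg : G s₀ θ₀ < φ s₀ := by linarith [hm' s hs θ hθ]
  have hin : s₀ ∈ Ioo lo hi := by
    refine ⟨lt_of_le_of_ne hs₀.1 ?_, lt_of_le_of_ne hs₀.2 ?_⟩
    · rintro rfl; linarith [(hb θ₀ hθ₀).1]
    · rintro rfl; linarith [(hb θ₀ hθ₀).2]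
  have hloc : IsLocalMin (fun t => G t θ₀ - φ t) s₀ := by
    filter_upwards [Icc_mem_nhds hin.1 hin.2] with t ht using hm' t ht θ₀ hθ₀
  have h1 : G1 s₀ θ₀ - φ' s₀ = 0 := hloc.hasDerivAt_eq_zero ((hd θ₀ hθ₀ s₀).sub (hφ s₀))
  have h2 : 0 ≤ G2 s₀ θ₀ - φ'' s₀ := second_deriv_nonneg
    (Eventually.of_forall fun t => (hd θ₀ hθ₀ t).sub (hφ t))
    ((hd' θ₀ hθ₀ s₀).sub (hφ' s₀)) hloc
  have h3 := hT θ₀ hθ₀ s₀ fun θ' hθ' => by linarith [hm' s₀ hs₀ θ' hθ']
  have h4 := heq θ₀ hθ₀ s₀ hin hneg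
  have h5 : G1 s₀ θ₀ = φ' s₀ := by linarith
  rw [h5] at h4
  linarith

/-- The tangential test for `cU`. -/
lemma cT_nonneg (hf : C2 f) (k : ℝ) {s : ℝ} {θ : En n} (hθ : θ ∈ sph n)
    (h : ∀ θ' ∈ sph n, cU k f s θ ≤ cU k f s θ') : 0 ≤ cT k f s θ := by
  have := tan_test hf (a := Real.exp (k * s)) (b := 0) (r₁ := Real.exp s) (r₂ := 1)
    (Real.exp_pos s) one_pos hθ (by simpa [cU, pt] using h)
  simpa [cT, pt] using this

lemma cT_sub_nonneg (hf : C2 f) (k : ℝ) {s t : ℝ} {θ : En n} (hθ : θ ∈ sph n)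
    (h : ∀ θ' ∈ sph n, cU k f s θ - cU k f t θ ≤ cU k f s θ' - cU k f t θ') :
    0 ≤ cT k f s θ - cT k f t θ := by
  have := tan_test hf (a := Real.exp (k * s)) (b := Real.exp (k * t)) (r₁ := Real.exp s)
    (r₂ := Real.exp t) (Real.exp_pos s) (Real.exp_pos t) hθ (by simpa [cU, pt] using h)
  simp only [cT, pt]; linarith

lemma cU_slab (hf : C2 f) {k c lo hi : ℝ} {φ φ' φ'' : ℝ → ℝ}
    (hφ : ∀ s, HasDerivAt φ (φ' s) s) (hφ' : ∀ s, HasDerivAt φ' (φ'' s) s)
    (hb : ∀ θ ∈ sph n, φ lo ≤ cU k f lo θ ∧ φ hi ≤ cU k f hi θ)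
    (heq : ∀ θ ∈ sph n, ∀ s ∈ Ioo lo hi, cU k f s θ < φ s →
      cU2 k f s θ + c * cU1 k f s θ + cT k f s θ < φ'' s + c * φ' s) :
    ∀ θ ∈ sph n, ∀ s ∈ Icc lo hi, φ s ≤ cU k f s θ :=
  slab_le (continuousOn_cU hf k) (fun _ hθ s => hasDerivAt_cU hf k s hθ)
    (fun _ hθ s => hasDerivAt_cU1 hf k s hθ) (fun _ hθ _ h => cT_nonneg hf k hθ h) hφ hφ' hb heq

end Vale.Agent.P100
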