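import Vale.Agent.P100.Cylinder
import Mathlib.Analysis.Calculus.Deriv.MeanValue

open Filter Topology Set
open scoped InnerProductSpace

namespace Vale.Agent.P100

variable {n : ℕ} {f : En n → ℝ} {k : ℝ}

def Refl (k : ℝ) (f : En n → ℝ) (L : ℝ) : Prop :=
  ∀ θ ∈ sph n, ∀ s, L < s → cU k f (2 * L - s) θ ≤ cU k f s θ

def Low (f : En n → ℝ) (a : ℝ) : Prop :=
  ∀ s₀ : ℝ, ∃ c > 0, ∀ θ ∈ sph n, ∀ s ≥ s₀, c * Real.exp (-a * s) ≤ f (pt s θ)

lemma sph_nonempty (hn : 0 < n) : (sph n).Nonempty :=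
  ⟨EuclideanSpace.single ⟨0, hn⟩ (1 : ℝ), by simp [sph]⟩

lemma deriv_nonneg_right {g : ℝ → ℝ} {g' x : ℝ} (h : HasDerivAt g g' x)
    (hm : ∀ᶠ t in 𝓝[>] x, g x ≤ g t) : 0 ≤ g' := by
  have h1 := (hasDerivAt_iff_tendsto_slope.1 h).mono_left
    (nhdsWithin_mono x (s := Ioi x) fun t ht => ne_of_gt ht)
  refine ge_of_tendsto h1 ?_
  filter_upwards [hm, self_mem_nhdsWithin] with t ht htx
  rw [slope_def_field]
  exact div_nonneg (sub_nonneg.2 ht) (sub_nonneg.2 (le_of_lt htx))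

lemma min_on_sphere (hn : 0 < n) (hf : C2 f) (hpos : ∀ x, 0 < f x) (s : ℝ) :
    ∃ m > 0, ∀ θ ∈ sph n, m ≤ f (pt s θ) := by
  obtain ⟨θ₀, _, h⟩ := (isCompact_sphere (0 : En n) 1).exists_isMinOn (sph_nonempty hn)
    (hf.continuousOn.comp (Continuous.continuousOn (by unfold pt; fun_prop))
      fun θ hθ => pt_ne_zero hθ s)
  exact ⟨_, hpos _, fun θ hθ => h hθ⟩

lemma le_on_inner (hc : Continuous f) (hpos : ∀ x, 0 < f x) (ρ : ℝ) :
    ∃ M > 0, ∀ θ ∈ sph n, ∀ t ≤ ρ, f (pt t θ) ≤ M := by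
  obtain ⟨x₀, _, h⟩ := (isCompact_closedBall (0 : En n) (Real.exp ρ)).exists_isMaxOn
    ⟨0, by simp [(Real.exp_pos ρ).le]⟩ hc.continuousOn
  exact ⟨f x₀, hpos _, fun θ hθ t ht => h (by
    simpa [norm_pt hθ] using Real.exp_le_exp.2 ht)⟩

lemma refl_of_mono {Ls : ℝ} (hR : ∀ L ≤ Ls, Refl k f L) {θ : En n} (hθ : θ ∈ sph n) {t s : ℝ}
    (hts : t < s) (hs : s ≤ Ls) : cU k f t θ ≤ cU k f s θ := by
  have := hR ((s + t) / 2) (by linarith) θ hθ s (by linarith)
  rwa [show 2 * ((s + t) / 2) - s = t by ring] at this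

lemma cU1_nonneg (hf : C2 f) {Ls : ℝ} (hR : ∀ L ≤ Ls, Refl k f L) {θ : En n}
    (hθ : θ ∈ sph n) {t : ℝ} (ht : t ≤ Ls) : 0 ≤ cU1 k f t θ := by
  have h : HasDerivAt (fun σ => cU k f (t + σ) θ - cU k f (t - σ) θ)
      (2 * cU1 k f t θ) 0 := by
    refine ((HasDerivAt.comp_const_add t 0 (by simpa using hasDerivAt_cU hf k t hθ)).sub
      (HasDerivAt.comp_const_sub t 0 (by simpa using hasDerivAt_cU hf k t hθ))).congr_deriv ?_
    ring
  have := deriv_nonneg_right h (by
    filter_upwards [self_mem_nhdsWithin] with σ (hσ : 0 < σ)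
    have := hR t ht θ hθ (t + σ) (by linarith)
    rw [show 2 * t - (t + σ) = t - σ by ring] at this
    simpa using this)
  linarith

/-- A reflected inequality is strict, and the axial derivative at the plane is positive. -/
lemma strict_refl (hn : 0 < n) (hf : C2 f) {c β Ls : ℝ} (hc : c ≤ 0) {F : ℝ → En n → ℝ}
    (heq : ∀ θ ∈ sph n, ∀ s, cU2 k f s θ + c * cU1 k f s θ + cT k f s θ
      = β * cU k f s θ - F s θ)
    (hR : ∀ L ≤ Ls, Refl k f L)
    (hF : ∀ θ ∈ sph n, ∀ s, Ls < s → F (2 * Ls - s) θ < F s θ) :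
    (∀ θ ∈ sph n, ∀ s, Ls < s → cU k f (2 * Ls - s) θ < cU k f s θ) ∧
      ∀ θ ∈ sph n, 0 < cU1 k f Ls θ := by
  set G : ℝ → En n → ℝ := fun s θ => cU k f s θ - cU k f (2 * Ls - s) θ with hG
  set G1 : ℝ → En n → ℝ := fun s θ => cU1 k f s θ + cU1 k f (2 * Ls - s) θ with hG1
  set G2 : ℝ → En n → ℝ := fun s θ => cU2 k f s θ - cU2 k f (2 * Ls - s) θ with hG2
  set GT : ℝ → En n → ℝ := fun s θ => cT k f s θ - cT k f (2 * Ls - s) θ with hGT
  have hd : ∀ θ ∈ sph n, ∀ s, HasDerivAt (fun t => G t θ) (G1 s θ) s := fun θ hθ s => by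
    refine ((hasDerivAt_cU hf k s hθ).sub
      ((hasDerivAt_cU hf k _ hθ).comp_const_sub (2 * Ls) s)).congr_deriv ?_
    simp [hG1]
  have hd' : ∀ θ ∈ sph n, ∀ s, HasDerivAt (fun t => G1 t θ) (G2 s θ) s := fun θ hθ s => by
    refine ((hasDerivAt_cU1 hf k s hθ).add
      ((hasDerivAt_cU1 hf k _ hθ).comp_const_sub (2 * Ls) s)).congr_deriv ?_
    simp [hG2, sub_eq_add_neg]
  have hL0 : ∀ θ ∈ sph n, ∀ s, Ls < s → G2 s θ + c * G1 s θ + GT s θ < β * G s θ := by
    intro θ hθ s hs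
    have e1 := heq θ hθ s
    have e2 := heq θ hθ (2 * Ls - s)
    have h1 : c * cU1 k f (2 * Ls - s) θ ≤ 0 :=
      mul_nonpos_of_nonpos_of_nonneg hc (cU1_nonneg hf hR hθ (by linarith))
    have := hF θ hθ s hs
    simp only [hG, hG1, hG2, hGT]
    linarith
  have hnn : ∀ θ ∈ sph n, ∀ s, Ls < s → 0 ≤ G s θ := fun θ hθ s hs =>
    sub_nonneg.2 (hR Ls le_rfl θ hθ s hs)
  have first : ∀ θ ∈ sph n, ∀ s, Ls < s → cU k f (2 * Ls - s) θ < cU k f s θ := by
    intro θ hθ s hs
    rcases (hnn θ hθ s hs).eq_or_lt with h | h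
    · exfalso
      have hloc : IsLocalMin (fun t => G t θ) s := by
        filter_upwards [Ioi_mem_nhds hs] with t ht
        rw [← h]; exact hnn θ hθ t ht
      have h1 : G1 s θ = 0 := hloc.hasDerivAt_eq_zero (hd θ hθ s)
      have h2 := second_deriv_nonneg (Eventually.of_forall (hd θ hθ)) (hd' θ hθ s) hloc
      have h3 : 0 ≤ GT s θ := cT_sub_nonneg hf k hθ fun θ' hθ' => by
        have := hnn θ' hθ' s hs
        simp only [hG] at h this; linarith
      have := hL0 θ hθ s hs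
      rw [h1, ← h] at this
      linarith
    · simpa [hG] using h
  refine ⟨first, fun θ hθ => ?_⟩
  have hGc : ContinuousOn (fun z : ℝ × En n => G z.1 z.2) (univ ×ˢ sph n) :=
    (continuousOn_cU hf k).sub ((continuousOn_cU hf k).comp
      (f := fun z : ℝ × En n => (2 * Ls - z.1, z.2)) (by fun_prop) fun z hz => ⟨trivial, hz.2⟩)
  obtain ⟨θm, hθm, hmin⟩ := (isCompact_sphere (0 : En n) 1).exists_isMinOn (sph_nonempty hn)
    (hGc.comp (f := fun θ : En n => (Ls + 1, θ)) (by fun_prop) fun θ hθ => ⟨trivial, hθ⟩)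
  have hm0 : 0 < G (Ls + 1) θm := sub_pos.2 (first θm hθm _ (by linarith))
  set κ := |c| + |β| + 1 with hκdef
  have hκ0 : 0 < κ := by positivity
  have hκ : |β| < κ ^ 2 + c * κ := by
    have : |β| + 1 ≤ κ + c := by linarith [neg_abs_le c]
    nlinarith [abs_nonneg β, abs_nonneg c]
  set ε := G (Ls + 1) θm / Real.exp κ with hεdef
  have hε : 0 < ε := by positivity
  let φ : ℝ → ℝ := fun s => ε * (Real.exp (κ * (s - Ls)) - 1)
  have hφ : ∀ s, HasDerivAt φ (ε * κ * Real.exp (κ * (s - Ls))) s := fun s => by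
    refine (((((hasDerivAt_id s).sub_const Ls).const_mul κ).exp.sub_const 1).const_mul ε
      ).congr_deriv ?_
    simp; ring
  have hφ' : ∀ s, HasDerivAt (fun t => ε * κ * Real.exp (κ * (t - Ls)))
      (ε * κ ^ 2 * Real.exp (κ * (s - Ls))) s := fun s => by
    refine ((((hasDerivAt_id s).sub_const Ls).const_mul κ).exp.const_mul (ε * κ)).congr_deriv ?_
    simp; ring
  have key := slab_le (lo := Ls) (hi := Ls + 1) (c := c) hGc hd hd'
    (fun θ hθ s h => cT_sub_nonneg hf k hθ h) hφ hφ'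
    (fun θ' hθ' => ⟨by simp [φ, hG, show 2 * Ls - Ls = Ls by ring], by
      have h1 : φ (Ls + 1) ≤ ε * Real.exp κ := by
        simp only [φ, add_sub_cancel_left, mul_one]; nlinarith
      have h2 : G (Ls + 1) θm ≤ G (Ls + 1) θ' := hmin hθ'
      have h3 : ε * Real.exp κ = G (Ls + 1) θm := div_mul_cancel₀ _ (Real.exp_pos κ).ne'
      linarith⟩)
    (fun θ' hθ' s hs hlt => by
      have h1 := hL0 θ' hθ' s hs.1
      have h2 := hnn θ' hθ' s hs.1
      have hE := Real.exp_pos (κ * (s - Ls))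
      have h3 : β * G s θ' ≤ |β| * (ε * Real.exp (κ * (s - Ls))) := by
        refine (mul_le_mul_of_nonneg_right (le_abs_self β) h2).trans
          (mul_le_mul_of_nonneg_left ?_ (abs_nonneg β))
        simp only [φ] at hlt; nlinarith
      have h4 : |β| * (ε * Real.exp (κ * (s - Ls))) <
          (κ ^ 2 + c * κ) * (ε * Real.exp (κ * (s - Ls))) :=
        mul_lt_mul_of_pos_right hκ (by positivity)
      nlinarith)
  have hder := deriv_nonneg_right ((hd θ hθ Ls).sub (hφ Ls)) (by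
    filter_upwards [Ioo_mem_nhdsGT (show Ls < Ls + 1 by linarith)] with t ht
    have := key θ hθ t (Ioo_subset_Icc_self ht)
    simp only [φ, hG, show 2 * Ls - Ls = Ls by ring, Pi.sub_apply, sub_self, mul_zero,
      Real.exp_zero]
    simp only [φ, hG] at this
    linarith)
  simp only [hG1, show 2 * Ls - Ls = Ls by ring, sub_self, mul_zero, Real.exp_zero, mul_one] at hder
  linarith [mul_pos hε hκ0]

lemma extend_refl (hf : C2 f) {Ls R : ℝ} (hR : ∀ L ≤ Ls, Refl k f L)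
    (h1 : ∀ θ ∈ sph n, ∀ s, Ls < s → cU k f (2 * Ls - s) θ < cU k f s θ)
    (h2 : ∀ θ ∈ sph n, 0 < cU1 k f Ls θ)
    (htail : ∀ L ≤ Ls + 1, ∀ θ ∈ sph n, ∀ s ≥ R, cU k f (2 * L - s) θ ≤ cU k f s θ) :
    ∃ ε > 0, ∀ L ≤ Ls + ε, Refl k f L := by
  by_contra hcon
  push Not at hcon
  have hb : ∀ m : ℕ, ∃ L θ s, L ≤ Ls + 1 / ((m : ℝ) + 1) ∧ Ls < L ∧ θ ∈ sph n ∧ L < s ∧ s < R ∧
      cU k f s θ < cU k f (2 * L - s) θ := by
    intro m
    obtain ⟨L, hL, hnot⟩ := hcon (1 / ((m : ℝ) + 1)) Nat.one_div_pos_of_nat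
    simp only [Refl, not_forall, not_le] at hnot
    obtain ⟨θ, hθ, s, hs, hlt⟩ := hnot
    have hLs : Ls < L := lt_of_not_ge fun h => (hR L h θ hθ s hs).not_gt hlt
    have hL1 : L ≤ Ls + 1 := hL.trans (by
      have : 1 / ((m : ℝ) + 1) ≤ 1 := by
        rw [div_le_one (by positivity)]; linarith [(Nat.cast_nonneg m : (0 : ℝ) ≤ m)]
      linarith)
    exact ⟨L, θ, s, hL, hLs, hθ, hs, lt_of_not_ge fun h => (htail L hL1 θ hθ s h).not_gt hlt,
      hlt⟩
  choose L θ s hL hLs hθ hs hsR hlt using hb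
  obtain ⟨⟨s₀, θ₀⟩, ⟨hs₀, hθ₀⟩, φ, hφ, hlim⟩ :=
    ((isCompact_Icc (a := Ls) (b := R)).prod (isCompact_sphere (0 : En n) 1)).tendsto_subseq
      (x := fun m => (s m, θ m))
      fun m => ⟨⟨((hLs m).trans (hs m)).le, (hsR m).le⟩, hθ m⟩
  have hLt : Tendsto L atTop (𝓝 Ls) :=
    tendsto_of_tendsto_of_tendsto_of_le_of_le tendsto_const_nhds
      (by simpa using tendsto_one_div_add_atTop_nhds_zero_nat.const_add Ls)
      (fun m => (hLs m).le) hL
  have hst : Tendsto (fun m => s (φ m)) atTop (𝓝 s₀) := (continuous_fst.tendsto _).comp hlim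
  have hθt : Tendsto (fun m => θ (φ m)) atTop (𝓝 θ₀) := (continuous_snd.tendsto _).comp hlim
  have htt : Tendsto (fun m => 2 * L (φ m) - s (φ m)) atTop (𝓝 (2 * Ls - s₀)) :=
    ((hLt.comp hφ.tendsto_atTop).const_mul 2).sub hst
  have lim : ∀ {g : ℝ → En n → ℝ} {x : ℕ → ℝ} {x₀ : ℝ},
      ContinuousOn (fun z : ℝ × En n => g z.1 z.2) (univ ×ˢ sph n) →
      Tendsto x atTop (𝓝 x₀) →
      Tendsto (fun m => g (x m) (θ (φ m))) atTop (𝓝 (g x₀ θ₀)) := by
    intro g x x₀ hg hx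
    exact (hg (x₀, θ₀) ⟨trivial, hθ₀⟩).tendsto.comp (tendsto_nhdsWithin_iff.2
      ⟨hx.prodMk_nhds hθt, Eventually.of_forall fun m => ⟨trivial, hθ _⟩⟩)
  rcases hs₀.1.eq_or_lt with h | h
  · have hex : ∀ m, ∃ ξ ∈ Ioo (2 * L m - s m) (s m), cU1 k f ξ (θ m) < 0 := by
      intro m
      have ha : 2 * L m - s m < s m := by linarith [hs m]
      obtain ⟨ξ, hξ, he⟩ := exists_hasDerivAt_eq_slope (fun t => cU k f t (θ m)) _ ha
        (fun t _ => (hasDerivAt_cU hf k t (hθ m)).continuousAt.continuousWithinAt)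
        (fun t _ => hasDerivAt_cU hf k t (hθ m))
      exact ⟨ξ, hξ, by rw [he]; exact div_neg_of_neg_of_pos (sub_neg.2 (hlt m)) (sub_pos.2 ha)⟩
    choose ξ hξ hξneg using hex
    have hξt : Tendsto (fun m => ξ (φ m)) atTop (𝓝 Ls) := by
      subst h
      refine tendsto_of_tendsto_of_tendsto_of_le_of_le ?_ hst
        (fun m => (hξ _).1.le) (fun m => (hξ _).2.le)
      simpa [two_mul] using htt
    exact (h2 θ₀ hθ₀).not_ge (le_of_tendsto (lim (continuousOn_cU1 hf k) hξt)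
      (Eventually.of_forall fun m => (hξneg _).le))
  · exact (h1 θ₀ hθ₀ s₀ h).not_ge (le_of_tendsto_of_tendsto
      (lim (continuousOn_cU hf k) hst) (lim (continuousOn_cU hf k) htt)
      (Eventually.of_forall fun m => (hlt _).le))

lemma refl_closed (hf : C2 f) {Ls : ℝ} (h : ∀ L < Ls, Refl k f L) :
    ∀ L ≤ Ls, Refl k f L := by
  intro L hL θ hθ s hs
  rcases hL.lt_or_eq with h' | rfl
  · exact h L h' θ hθ s hs
  have hc : ContinuousAt (fun M => cU k f (2 * M - s) θ) L :=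
    ((hasDerivAt_cU hf k (2 * L - s) hθ).continuousAt).comp (f := fun M => 2 * M - s) (by fun_prop)
  refine le_of_tendsto (hc.tendsto.mono_left nhdsWithin_le_nhds) (b := cU k f s θ) (x := 𝓝[<] L) ?_
  filter_upwards [self_mem_nhdsWithin] with M (hM : M < L)
  exact h M hM θ hθ s (by linarith)

lemma tail_refl (hk : 0 < k) (hc : Continuous f) (hpos : ∀ x, 0 < f x) {N : ℝ}
    (hlow : Low f N) (hN : N < 2 * k) (Lmax : ℝ) :
    ∃ R, ∀ L ≤ Lmax, ∀ θ ∈ sph n, ∀ s ≥ R, cU k f (2 * L - s) θ ≤ cU k f s θ := by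
  obtain ⟨M, hM, hMb⟩ := le_on_inner hc hpos Lmax
  obtain ⟨c, hc0, hcb⟩ := hlow Lmax
  have ht : Tendsto (fun s => c * Real.exp ((2 * k - N) * s)) atTop atTop :=
    (Real.tendsto_exp_atTop.comp (tendsto_id.const_mul_atTop (by linarith))).const_mul_atTop hc0
  obtain ⟨R, hR⟩ := eventually_atTop.1
    (ht.eventually_ge_atTop (M * Real.exp (2 * k * Lmax)))
  refine ⟨max R Lmax, fun L hL θ hθ s hs => ?_⟩
  have h1 := hR s (le_trans (le_max_left _ _) hs)
  have h2 := le_trans (le_max_right _ _) hs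
  calc cU k f (2 * L - s) θ
      ≤ Real.exp (k * (2 * L - s)) * M :=
        mul_le_mul_of_nonneg_left (hMb θ hθ _ (by linarith)) (Real.exp_pos _).le
    _ ≤ Real.exp (-(k * s)) * (M * Real.exp (2 * k * Lmax)) := by
        rw [mul_left_comm _ M, ← Real.exp_add, mul_comm _ M]
        gcongr
        nlinarith
    _ ≤ Real.exp (-(k * s)) * (c * Real.exp ((2 * k - N) * s)) :=
        mul_le_mul_of_nonneg_left h1 (Real.exp_pos _).le
    _ = Real.exp (k * s) * (c * Real.exp (-N * s)) := by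
        rw [mul_left_comm, ← Real.exp_add, mul_left_comm (Real.exp (k * s)), ← Real.exp_add]
        ring_nf
    _ ≤ cU k f s θ := mul_le_mul_of_nonneg_left (hcb θ hθ s h2) (Real.exp_pos _).le

lemma start_refl (hk : 0 < k) (hf : C2 f) (hc : Continuous f) (hpos : ∀ x, 0 < f x) {N s₀ : ℝ}
    (hlow : Low f N) (hN : N < 2 * k)
    (h0 : ∀ θ ∈ sph n, ∀ s ≤ s₀, 0 ≤ cU1 k f s θ) :
    ∃ L₀, ∀ L ≤ L₀, Refl k f L := by
  obtain ⟨M, hM, hMb⟩ := le_on_inner hc hpos s₀
  obtain ⟨c, hc0, hcb⟩ := hlow s₀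
  have ht : Tendsto (fun L => M * Real.exp (2 * k * L)) atBot (𝓝 0) := by
    simpa using (Real.tendsto_exp_atBot.comp
      (tendsto_id.const_mul_atBot (show 0 < 2 * k by linarith))).const_mul M
  obtain ⟨L₁, hL₁⟩ := eventually_atBot.1 (ht.eventually_le_const
    (show 0 < c * Real.exp ((2 * k - N) * s₀) by positivity))
  refine ⟨min L₁ s₀, fun L hL θ hθ s hs => ?_⟩
  have hL1 := hL.trans (min_le_left _ _)
  have hL0 := hL.trans (min_le_right _ _)
  have hmono : MonotoneOn (fun t => cU k f t θ) (Iic s₀) :=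
    monotoneOn_of_hasDerivWithinAt_nonneg (convex_Iic s₀)
      (fun t _ => (hasDerivAt_cU hf k t hθ).continuousAt.continuousWithinAt)
      (fun t _ => (hasDerivAt_cU hf k t hθ).hasDerivWithinAt)
      (fun t ht => h0 θ hθ t (interior_subset (s := Iic s₀) ht))
  rcases le_or_gt s s₀ with h | h
  · exact hmono (show 2 * L - s ≤ s₀ by linarith) h (by linarith)
  calc cU k f (2 * L - s) θ
      ≤ Real.exp (k * (2 * L - s)) * M :=
        mul_le_mul_of_nonneg_left (hMb θ hθ _ (by linarith)) (Real.exp_pos _).le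
    _ = Real.exp (-(k * s)) * (M * Real.exp (2 * k * L)) := by
        rw [mul_left_comm _ M, ← Real.exp_add, mul_comm _ M]
        ring_nf
    _ ≤ Real.exp (-(k * s)) * (c * Real.exp ((2 * k - N) * s₀)) :=
        mul_le_mul_of_nonneg_left (hL₁ L hL1) (Real.exp_pos _).le
    _ ≤ Real.exp (-(k * s)) * (c * Real.exp ((2 * k - N) * s)) := by
        gcongr
    _ = Real.exp (k * s) * (c * Real.exp (-N * s)) := by
        rw [mul_left_comm, ← Real.exp_add, mul_left_comm (Real.exp (k * s)), ← Real.exp_add]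
        ring_nf
    _ ≤ cU k f s θ := mul_le_mul_of_nonneg_left (hcb θ hθ s h.le) (Real.exp_pos _).le

/-- Near the origin, `r ^ k * f` increases along rays. -/
lemma near_zero (hn : 2 ≤ n) (hk : 0 < k) (hf : C2 f) (hc : Continuous f)
    (hpos : ∀ x, 0 < f x) {C δ : ℝ} (hC : 0 < C) (hδ : 0 < δ)
    (hsrc : ∀ θ ∈ sph n, ∀ s, lap f (pt s θ) ≤ 0 ∧
      (s ≤ 0 → -(Real.exp (2 * s) * lap f (pt s θ)) ≤ C * Real.exp (δ * s))) :
    ∃ s₀, ∀ θ ∈ sph n, ∀ s ≤ s₀, 0 ≤ cU1 k f s θ := by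
  set h : ℝ := ((n : ℝ) - 2) / 2 with hh
  have hh0 : 0 ≤ h := by
    have : (2 : ℝ) ≤ n := by exact_mod_cast hn
    positivity
  set a := f 0
  have ha : 0 < a := hpos 0
  set g : En n → ℝ := fun x => f x - a with hg
  have hgC : C2 g := hf.sub contDiffOn_const
  have hfd : fderiv ℝ g = fderiv ℝ f := funext fun x => fderiv_sub_const a
  have hlap : ∀ x, lap g x = lap f x := fun x => by simp [lap, hes, hfd]
  set η := min (a / 4) (k * a / (8 * (2 * Real.exp h + h + 1)))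
  have hη : 0 < η := by positivity
  obtain ⟨r, hr, hrb⟩ := Metric.continuousAt_iff.1 hc.continuousAt η hη
  have ht : Tendsto (fun s => C * Real.exp (δ * s)) atBot (𝓝 0) := by
    simpa using (Real.tendsto_exp_atBot.comp (tendsto_id.const_mul_atBot hδ)).const_mul C
  obtain ⟨s₁, hs₁⟩ := eventually_atBot.1 (ht.eventually_le_const (show 0 < k * a / 8 by positivity))
  refine ⟨min (min s₁ (Real.log r - 2)) (-1), fun θ hθ S hS => ?_⟩
  have hS0 : S ≤ -1 := hS.trans (min_le_right _ _)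
  have hS1 : S ≤ s₁ := hS.trans ((min_le_left _ _).trans (min_le_left _ _))
  have hS2 : S ≤ Real.log r - 2 := hS.trans ((min_le_left _ _).trans (min_le_right _ _))
  have hsmall : ∀ θ ∈ sph n, ∀ t ≤ S + 1, |g (pt t θ)| ≤ η := by
    intro θ hθ t ht
    have h1 : dist (pt t θ) 0 < r := by
      rw [dist_zero_right, norm_pt hθ, ← Real.exp_log hr]
      exact Real.exp_lt_exp.2 (by linarith)
    have := (hrb h1).le
    rwa [Real.dist_eq] at this
  set K := Real.exp (h * S) * (C * Real.exp (δ * S) + 2 * η * Real.exp h) with hKdef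
  have hK : 0 < K := by positivity
  let φ : ℝ → ℝ := fun σ => -K * (σ * (2 - σ))
  have hφ : ∀ σ, HasDerivAt φ (-K * (2 - 2 * σ)) σ := fun σ => by
    refine (((hasDerivAt_id σ).mul ((hasDerivAt_id σ).const_sub 2)).const_mul (-K)).congr_deriv ?_
    simp only [id]; ring
  have hφ' : ∀ σ : ℝ, HasDerivAt (fun t => -K * (2 - 2 * t)) (2 * K) σ := fun σ => by
    refine ((((hasDerivAt_id σ).const_mul 2).const_sub 2).const_mul (-K)).congr_deriv ?_
    ring
  have hcG : ContinuousOn (fun z : ℝ × En n => cU h g (S + z.1) z.2 - cU h g (S - z.1) z.2)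
      (univ ×ˢ sph n) :=
    ((continuousOn_cU hgC h).comp (f := fun z : ℝ × En n => (S + z.1, z.2)) (by fun_prop)
      fun z hz => ⟨trivial, hz.2⟩).sub
    ((continuousOn_cU hgC h).comp (f := fun z : ℝ × En n => (S - z.1, z.2)) (by fun_prop)
      fun z hz => ⟨trivial, hz.2⟩)
  have hd : ∀ θ ∈ sph n, ∀ σ, HasDerivAt (fun t => cU h g (S + t) θ - cU h g (S - t) θ)
      (cU1 h g (S + σ) θ + cU1 h g (S - σ) θ) σ := fun θ hθ σ => by
    refine (((hasDerivAt_cU hgC h _ hθ).comp_const_add S σ).sub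
      ((hasDerivAt_cU hgC h _ hθ).comp_const_sub S σ)).congr_deriv ?_
    simp
  have hd' : ∀ θ ∈ sph n, ∀ σ, HasDerivAt (fun t => cU1 h g (S + t) θ + cU1 h g (S - t) θ)
      (cU2 h g (S + σ) θ - cU2 h g (S - σ) θ) σ := fun θ hθ σ => by
    refine (((hasDerivAt_cU1 hgC h _ hθ).comp_const_add S σ).add
      ((hasDerivAt_cU1 hgC h _ hθ).comp_const_sub S σ)).congr_deriv ?_
    simp [sub_eq_add_neg]
  have habs : ∀ θ ∈ sph n, ∀ t ≤ S + 1, |cU h g t θ| ≤ Real.exp (h * S) * Real.exp h * η := by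
    intro θ hθ t ht
    rw [cU, abs_mul, abs_of_pos (Real.exp_pos _), ← Real.exp_add]
    exact mul_le_mul (Real.exp_le_exp.2 (by nlinarith)) (hsmall θ hθ t ht) (abs_nonneg _)
      (Real.exp_pos _).le
  have key := slab_le (lo := 0) (hi := 1) (c := 0) hcG hd hd'
    (GT := fun σ θ => cT h g (S + σ) θ - cT h g (S - σ) θ)
    (fun θ hθ σ hm => cT_sub_nonneg hgC h hθ hm) hφ hφ'
    (fun θ hθ => ⟨by simp [φ], by
      have h1 := abs_le.1 (habs θ hθ (S + 1) le_rfl)
      have h2 := abs_le.1 (habs θ hθ (S - 1) (by linarith))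
      have : 0 ≤ Real.exp (h * S) * (C * Real.exp (δ * S)) := by positivity
      simp only [φ, hKdef]; linarith⟩)
    (fun θ hθ σ hσ hlt => by
      have e1 := cyl_eq (f := g) h (S + σ) hθ
      have e2 := cyl_eq (f := g) h (S - σ) hθ
      simp only [hlap, show (n : ℝ) - 2 - 2 * h = 0 by rw [hh]; ring,
        show h * ((n : ℝ) - 2 - h) = h ^ 2 by rw [hh]; ring, zero_mul, add_zero] at e1 e2
      have h1 : Real.exp ((h + 2) * (S + σ)) * lap f (pt (S + σ) θ) ≤ 0 :=
        mul_nonpos_of_nonneg_of_nonpos (Real.exp_pos _).le (hsrc θ hθ _).1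
      have h2 := (hsrc θ hθ (S - σ)).2 (by linarith [hσ.1])
      have hE : Real.exp (h * (S - σ)) ≤ Real.exp (h * S) :=
        Real.exp_le_exp.2 (by nlinarith [hσ.1])
      have hE' : Real.exp (δ * (S - σ)) ≤ Real.exp (δ * S) :=
        Real.exp_le_exp.2 (by nlinarith [hσ.1])
      have h3 : -(Real.exp ((h + 2) * (S - σ)) * lap f (pt (S - σ) θ))
          ≤ Real.exp (h * S) * (C * Real.exp (δ * S)) := by
        rw [add_mul, Real.exp_add, mul_assoc, ← mul_neg]
        exact (mul_le_mul_of_nonneg_left h2 (Real.exp_pos _).le).trans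
          (mul_le_mul hE (mul_le_mul_of_nonneg_left hE' hC.le) (by positivity)
            (Real.exp_pos _).le)
      have h4 : h ^ 2 * (cU h g (S + σ) θ - cU h g (S - σ) θ) ≤ 0 := by
        refine mul_nonpos_of_nonneg_of_nonpos (sq_nonneg h) ?_
        have : φ σ ≤ 0 := by
          have : 0 ≤ σ * (2 - σ) := mul_nonneg hσ.1.le (by linarith [hσ.2])
          simp only [φ]; nlinarith
        linarith
      have h5 : Real.exp (h * S) * (C * Real.exp (δ * S)) ≤ K :=
        mul_le_mul_of_nonneg_left (le_add_of_nonneg_right (by positivity)) (Real.exp_pos _).le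
      rw [zero_mul, add_zero, zero_mul, add_zero]
      linarith)
  have hder := deriv_nonneg_right ((hd θ hθ 0).sub (hφ 0)) (by
    filter_upwards [Ioo_mem_nhdsGT (show (0 : ℝ) < 1 by norm_num)] with t ht
    have := key θ hθ t (Ioo_subset_Icc_self ht)
    simp only [φ, Pi.sub_apply, add_zero, sub_zero, zero_mul, mul_zero, sub_self]
    simp only [φ] at this
    linarith)
  simp only [add_zero, sub_zero, mul_zero, cU1, rd, hfd] at hder
  have hgS := abs_le.1 (hsmall θ hθ S (by linarith))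
  have hE := Real.exp_pos (h * S)
  have hrd : -(C * Real.exp (δ * S) + 2 * η * Real.exp h) - h * η
      ≤ fderiv ℝ f (pt S θ) (pt S θ) := by
    have hX : -(C * Real.exp (δ * S) + 2 * η * Real.exp h)
        ≤ h * g (pt S θ) + fderiv ℝ f (pt S θ) (pt S θ) := by
      refine le_of_mul_le_mul_left (a := Real.exp (h * S)) ?_ hE
      simp only [hKdef] at hder
      linarith
    nlinarith
  have hη1 : η ≤ a / 4 := min_le_left _ _
  have hη2 : η * (8 * (2 * Real.exp h + h + 1)) ≤ k * a :=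
    (le_div_iff₀ (by positivity)).1 (min_le_right _ _)
  have hfS : a / 2 ≤ f (pt S θ) := by
    have := hgS.1
    simp only [hg] at this; linarith
  refine mul_nonneg (Real.exp_pos _).le ?_
  have := hs₁ S hS1
  have : k * (a / 2) ≤ k * f (pt S θ) := mul_le_mul_of_nonneg_left hfS hk.le
  simp only [rd]
  nlinarith [Real.exp_pos h]

lemma cU_zero (f : En n → ℝ) (s : ℝ) (θ : En n) : cU 0 f s θ = f (pt s θ) := by simp [cU]

lemma cyl_eq_zero (s : ℝ) {θ : En n} (hθ : θ ∈ sph n) :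
    cU2 0 f s θ + ((n : ℝ) - 2) * cU1 0 f s θ + cT 0 f s θ
      = Real.exp (2 * s) * lap f (pt s θ) := by
  simpa using cyl_eq (f := f) 0 s hθ

/-- Positive superharmonic functions are bounded below at infinity. -/
lemma low_outer (hn : 0 < n) (hf : C2 f) (hpos : ∀ x, 0 < f x)
    (hsup : ∀ θ ∈ sph n, ∀ s, lap f (pt s θ) < 0) {N : ℝ} (hN0 : 0 < N) (hN : (n : ℝ) - 2 ≤ N) :
    Low f N := by
  intro s₀
  obtain ⟨m, hm, hmb⟩ := min_on_sphere hn hf hpos s₀
  refine ⟨m * Real.exp (N * s₀) * (1 - Real.exp (-N)), mul_pos (by positivity)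
    (sub_pos.2 (Real.exp_lt_one_iff.2 (by linarith))), fun θ hθ s hs => ?_⟩
  let φ : ℝ → ℝ := fun t => m * (Real.exp (-N * (t - s₀)) - Real.exp (-N * (s + 1 - s₀)))
  have hφ : ∀ t, HasDerivAt φ (-N * m * Real.exp (-N * (t - s₀))) t := fun t => by
    refine (((((hasDerivAt_id t).sub_const s₀).const_mul (-N)).exp.sub_const _).const_mul m
      ).congr_deriv ?_
    simp; ring
  have hφ' : ∀ t, HasDerivAt (fun t => -N * m * Real.exp (-N * (t - s₀)))
      (N ^ 2 * m * Real.exp (-N * (t - s₀))) t := fun t => by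
    refine ((((hasDerivAt_id t).sub_const s₀).const_mul (-N)).exp.const_mul (-N * m)
      ).congr_deriv ?_
    simp; ring
  have := cU_slab hf (k := 0) (c := (n : ℝ) - 2) (lo := s₀) (hi := s + 1) hφ hφ'
    (fun θ' hθ' => by
      refine ⟨?_, ?_⟩ <;> rw [cU_zero]
      · refine le_trans ?_ (hmb θ' hθ')
        simp only [φ, sub_self, mul_zero, Real.exp_zero]
        nlinarith [Real.exp_pos (-N * (s + 1 - s₀))]
      · simpa [φ] using (hpos _).le)
    (fun θ' hθ' t _ _ => by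
      rw [cyl_eq_zero t hθ']
      have h1 := mul_neg_of_pos_of_neg (Real.exp_pos (2 * t)) (hsup θ' hθ' t)
      have h2 : 0 ≤ N * m * (N - ((n : ℝ) - 2)) * Real.exp (-N * (t - s₀)) :=
        mul_nonneg (mul_nonneg (by positivity) (by linarith)) (Real.exp_pos _).le
      linarith) θ hθ s ⟨hs, by linarith⟩
  rw [cU_zero] at this
  refine le_of_eq_of_le ?_ this
  have e1 : Real.exp (-N * (s - s₀)) = Real.exp (-N * s) * Real.exp (N * s₀) := by
    rw [← Real.exp_add]; ring_nf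
  have e2 : Real.exp (-N * (s + 1 - s₀)) = Real.exp (-N * s) * Real.exp (N * s₀) * Real.exp (-N) := by
    rw [← Real.exp_add, ← Real.exp_add]; ring_nf
  simp only [φ, e1, e2]; ring

/-- Gain of the lower bound through the equation. -/
lemma low_step (hn : 2 ≤ n) (hf : C2 f) (hpos : ∀ x, 0 < f x) {g : En n → ℝ}
    {B q a : ℝ} (hq : 0 < q)
    (hsrc : ∀ θ ∈ sph n, ∀ s, lap f (pt s θ) = -(Real.exp (B * s) * g (pt s θ) ^ q))
    (hg : Low g a) : Low f (q * a - B - 2) := by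
  intro s₀
  obtain ⟨c, hc, hcb⟩ := hg (s₀ - 1)
  set κ := 2 + B - q * a with hκ
  set N := (n : ℝ) - 2 with hN
  have hN0 : 0 ≤ N := by
    have : (2 : ℝ) ≤ n := by exact_mod_cast hn
    linarith
  set ε₀ := c ^ q * Real.exp (-|κ|) / (3 * (1 + N)) with hε₀
  have hcq : 0 < c ^ q := Real.rpow_pos_of_pos hc q
  refine ⟨ε₀, by positivity, fun θ hθ S hS => ?_⟩
  set ε := ε₀ * Real.exp (κ * S) with hεd
  have hε : 0 < ε := by positivity
  let φ : ℝ → ℝ := fun t => ε * (1 - (t - S) ^ 2)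
  have hφ : ∀ t, HasDerivAt φ (-2 * ε * (t - S)) t := fun t => by
    refine (((((hasDerivAt_id t).sub_const S).pow 2).const_sub 1).const_mul ε).congr_deriv ?_
    simp; ring
  have hφ' : ∀ t, HasDerivAt (fun t => -2 * ε * (t - S)) (-2 * ε) t := fun t => by
    refine (((hasDerivAt_id t).sub_const S).const_mul (-2 * ε)).congr_deriv ?_
    simp
  have := cU_slab hf (k := 0) (c := N) (lo := S - 1) (hi := S + 1) hφ hφ'
    (fun θ' hθ' => by constructor <;> rw [cU_zero] <;> simpa [φ] using (hpos _).le)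
    (fun θ' hθ' t ht _ => by
      rw [hN, cyl_eq_zero t hθ', hsrc θ' hθ' t, ← hN]
      have h1 : c ^ q * Real.exp (-q * a * t) ≤ g (pt t θ') ^ q := by
        have := Real.rpow_le_rpow (by positivity) (hcb θ' hθ' t (by linarith [ht.1])) hq.le
        rw [Real.mul_rpow hc.le (Real.exp_pos _).le, ← Real.exp_mul] at this
        rwa [show -q * a * t = -a * t * q by ring]
      have h2 : c ^ q * Real.exp (κ * S - |κ|)
          ≤ Real.exp (2 * t) * (Real.exp (B * t) * g (pt t θ') ^ q) := by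
        have h3 : κ * S - |κ| ≤ κ * t := by
          have h : |κ * (S - t)| ≤ |κ| := by
            rw [abs_mul]
            exact mul_le_of_le_one_right (abs_nonneg κ)
              (abs_le.2 ⟨by linarith [ht.2], by linarith [ht.1]⟩)
          linarith [le_abs_self (κ * (S - t))]
        refine (mul_le_mul_of_nonneg_left (Real.exp_le_exp.2 h3) hcq.le).trans ?_
        have : Real.exp (κ * t) = Real.exp (2 * t) * (Real.exp (B * t) * Real.exp (-q * a * t)) := by
          rw [← Real.exp_add, ← Real.exp_add, hκ]; congr 1; ring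
        rw [this, mul_left_comm, mul_left_comm (c ^ q)]
        gcongr
      have h4 : c ^ q * Real.exp (κ * S - |κ|) = 3 * (1 + N) * ε := by
        rw [hεd, hε₀, sub_eq_add_neg, Real.exp_add]; field_simp
      have h5 : N * (-2 * ε * (t - S)) ≥ -(2 * N * ε) := by
        nlinarith [mul_nonneg (mul_nonneg hN0 hε.le) (show 0 ≤ 1 - (t - S) by linarith [ht.2])]
      nlinarith [mul_nonneg hN0 hε.le]) θ hθ S ⟨by linarith, by linarith⟩
  rw [cU_zero] at this
  refine le_of_eq_of_le ?_ (le_of_eq_of_le (show ε = φ S by simp [φ]) this)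
  rw [hεd, hκ]; ring_nf

/-- A lower bound growing at infinity is impossible. -/
lemma no_growth (hn : 2 ≤ n) (hf : C2 f) (hc : Continuous f) (hpos : ∀ x, 0 < f x)
    (hsup : ∀ θ ∈ sph n, ∀ s, lap f (pt s θ) < 0) {a : ℝ} (ha : a < 0) : ¬ Low f a := by
  intro h
  obtain ⟨c, hc0, hcb⟩ := h 0
  obtain ⟨M, hM, hMb⟩ := le_on_inner hc hpos 0
  have ht : Tendsto (fun s => c * Real.exp (-a * s)) atTop atTop :=
    (Real.tendsto_exp_atTop.comp (tendsto_id.const_mul_atTop (neg_pos.2 ha))).const_mul_atTop hc0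
  obtain ⟨R, hR⟩ := eventually_atTop.1 (ht.eventually_gt_atTop (2 * M))
  set S := max R 1 with hSd
  have hS : 1 ≤ S := le_max_right _ _
  set m := c * Real.exp (-a * S)
  have hm : 2 * M < m := hR S (le_max_left _ _)
  set η := m / (2 * S)
  have hηS : η * S = m / 2 := by simp only [η]; field_simp
  let φ : ℝ → ℝ := fun t => m + η * (t - S)
  have hφ : ∀ t, HasDerivAt φ η t := fun t => by
    simpa [φ] using (((hasDerivAt_id t).sub_const S).const_mul η).const_add m
  obtain ⟨θ, hθ⟩ := sph_nonempty (show 0 < n by omega)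
  have hN0 : (0 : ℝ) ≤ (n : ℝ) - 2 := by
    have : (2 : ℝ) ≤ n := by exact_mod_cast hn
    linarith
  have := cU_slab hf (k := 0) (c := (n : ℝ) - 2) (lo := -S) (hi := S) hφ
    (fun t => hasDerivAt_const t η)
    (fun θ' hθ' => by
      refine ⟨?_, ?_⟩ <;> rw [cU_zero]
      · refine le_trans (le_of_eq ?_) (hpos (pt (-S) θ')).le
        simp only [φ]; linarith
      · rw [show φ S = m by simp [φ]]
        exact hcb θ' hθ' S (by linarith))
    (fun θ' hθ' t _ _ => by
      rw [cyl_eq_zero t hθ']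
      have h1 := mul_neg_of_pos_of_neg (Real.exp_pos (2 * t)) (hsup θ' hθ' t)
      have h2 : 0 ≤ η := div_nonneg (by linarith) (by linarith)
      nlinarith) θ hθ 0 ⟨by linarith, by linarith⟩
  rw [cU_zero] at this
  have := hMb θ hθ 0 le_rfl
  simp only [φ] at *
  linarith

/-- A source of order at least `r ^ (-2)` at the origin is impossible. -/
lemma no_blowup (hn : 2 ≤ n) (hf : C2 f) (hc : Continuous f) (hpos : ∀ x, 0 < f x) {C : ℝ}
    (hC : 0 < C)
    (hsrc : ∀ θ ∈ sph n, ∀ s ≤ 0, Real.exp (2 * s) * lap f (pt s θ) ≤ -C) : False := by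
  obtain ⟨K, hK, hKb⟩ := le_on_inner hc hpos 0
  set N := (n : ℝ) - 2 with hN
  have hN0 : 0 ≤ N := by
    have : (2 : ℝ) ≤ n := by exact_mod_cast hn
    linarith
  set ε := C / (3 + N) with hεd
  have hε : 0 < ε := by positivity
  set M := 4 * (K + 1) / ε + 1 with hMd
  have hM : 1 ≤ M := le_add_of_nonneg_left (by positivity)
  let φ : ℝ → ℝ := fun t => ε / M * (-t * (t + M))
  have hφ : ∀ t, HasDerivAt φ (ε / M * (-2 * t - M)) t := fun t => by
    refine (((hasDerivAt_id t).neg.mul ((hasDerivAt_id t).add_const M)).const_mul (ε / M)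
      ).congr_deriv ?_
    simp only [id, Pi.neg_apply]; ring
  have hφ' : ∀ t, HasDerivAt (fun t => ε / M * (-2 * t - M)) (ε / M * -2) t := fun t => by
    refine ((((hasDerivAt_id t).const_mul (-2)).sub_const M).const_mul (ε / M)).congr_deriv ?_
    simp
  obtain ⟨θ, hθ⟩ := sph_nonempty (show 0 < n by omega)
  have := cU_slab hf (k := 0) (c := N) (lo := -M) (hi := 0) hφ hφ'
    (fun θ' hθ' => by constructor <;> rw [cU_zero] <;> simpa [φ] using (hpos _).le)
    (fun θ' hθ' t ht _ => by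
      rw [hN, cyl_eq_zero t hθ', ← hN]
      have h1 := hsrc θ' hθ' t ht.2.le
      have h2 : ε / M ≤ ε := div_le_self hε.le hM
      have h3 : -(ε * N) ≤ N * (ε / M * (-2 * t - M)) := by
        have h4 : -ε ≤ ε / M * (-2 * t - M) := by
          have : ε / M * M = ε := div_mul_cancel₀ ε (by linarith)
          have h6 : ε / M * (-M) ≤ ε / M * (-2 * t - M) :=
            mul_le_mul_of_nonneg_left (by linarith [ht.2]) (by positivity)
          linarith
        nlinarith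
      have h5 : ε * (3 + N) = C := div_mul_cancel₀ C (by positivity)
      linarith) θ hθ (-M / 2) ⟨by linarith, by linarith⟩
  rw [cU_zero] at this
  have h1 := hKb θ hθ (-M / 2) (by linarith)
  have h2 : φ (-M / 2) = ε * M / 4 := by simp only [φ]; field_simp; ring
  have h3 : ε * M = 4 * (K + 1) + ε := by simp only [hMd]; field_simp
  linarith

end Vale.Agent.P100
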